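import Crest.Agent.R12.T1.Tail

/-! Row 12, block T1: the truncated sieve identity and its remainder. -/

set_option autoImplicit false

namespace Crest.Agent.R12

open Crest.Agent.R17
open scoped ComplexConjugate

open Classical in
/-- the term of `e` -/
noncomputable def t1x (e m : O) : ℂ :=
  (if e ^ 3 ∣ m then TC m else 0) - if e ^ 2 ∣ m then ((cP * n6 m : ℝ) : ℂ) else 0

/-- the remainder of the truncation at `E` -/
noncomputable def t1R (E : ℝ) (m : O) : ℂ := f0 m - ∑ e ∈ pball E, mu e * t1x e m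

theorem t1_cube {c b e : O} (hc : Squarefree c) (he : Prim e) (hs : Squarefree e)
    (h : e ^ 3 ∣ c * b ^ 3) : e ∣ b := by
  obtain ⟨g, e', b', hg, he', h1, h2, h3⟩ := he.exists_gcd b
  obtain ⟨-, -, h4⟩ := (psq_mul_iff hg he').1 (h1 ▸ ⟨he, hs⟩)
  have h5 : IsCoprime e' b := h2 ▸ h4.symm.mul_right h3
  have h6 : e' ^ 3 ∣ c := (h5.pow (m := 3) (n := 3)).dvd_of_dvd_mul_right
    ((pow_dvd_pow_of_dvd ⟨g, by rw [h1, mul_comm]⟩ 3).trans h)
  have h7 := he'.eq_one_of_isUnit (hc e' (Dvd.dvd.trans ⟨e', by ring⟩ h6))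
  rw [h1, h2, h7, mul_one]
  exact dvd_mul_right _ _

open Classical in
theorem t1_f0 {m : O} (hm : Prim m) : f0 m = ∑ e ∈ pdiv m, mu e * t1x e m := by
  have h1 : ∑ e ∈ pdiv m, mu e * (if e ^ 2 ∣ m then ((cP * n6 m : ℝ) : ℂ) else 0) =
      if Squarefree m then ((cP * n6 m : ℝ) : ℂ) else 0 := by
    rw [← boole_mul, ← sum_mu_sq hm, Finset.sum_mul]
    refine Finset.sum_congr rfl fun e _ => ?_
    split_ifs <;> simp
  have h2 : ∑ e ∈ pdiv m, mu e * (if e ^ 3 ∣ m then TC m else 0) =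
      if Squarefree m then GG m else 0 := by
    by_cases h0 : TC m = 0
    · simp only [h0, ite_self, mul_zero, Finset.sum_const_zero]
      split_ifs with hs
      · rw [← TC_sqfree ⟨hm, hs⟩, h0]
      · rfl
    obtain ⟨c, b, hc, hb, e0⟩ := exists_of_TC_ne_zero h0
    have h3 : ∑ e ∈ pdiv m, mu e * (if e ^ 3 ∣ m then TC m else 0) =
        (∑ e ∈ pdiv m, if e ∣ b then mu e else 0) * TC m := by
      rw [Finset.sum_mul]
      refine Finset.sum_congr rfl fun e he => ?_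
      by_cases hs : Squarefree e
      · have : e ^ 3 ∣ m ↔ e ∣ b := ⟨fun h => t1_cube hc.2 (pra_of_mem_pdiv he).1 hs (e0 ▸ h),
          fun h => e0 ▸ (pow_dvd_pow_of_dvd h 3).mul_left c⟩
        simp only [this]
        split_ifs <;> simp
      · simp [mu_eq_zero.2 hs]
    have h4 : b * b ∣ m := ⟨c * b, by rw [e0]; ring⟩
    rw [h3, sum_mu_coprime hm b]
    by_cases hs : Squarefree m
    · rw [if_pos hs, hb.eq_one_of_isUnit (hs b h4), if_pos isCoprime_one_right, one_mul,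
        TC_sqfree ⟨hm, hs⟩]
    · rw [if_neg hs, if_neg, zero_mul]
      intro h
      have h5 := hb.eq_one_of_isUnit (h.isUnit_of_dvd' ((dvd_mul_right b b).trans h4) dvd_rfl)
      rw [h5, one_pow, mul_one] at e0
      exact hs (e0 ▸ hc.2)
  simp only [t1x, mul_sub, Finset.sum_sub_distrib, h1, h2, f0, PSq, hm, true_and]
  split_ifs <;> simp

open Classical in
theorem t1_R_eq (E : ℝ) {m : O} (hm : Prim m) :
    t1R E m = ∑ e ∈ (pdiv m).filter (fun e => E < nm e), mu e * t1x e m := by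
  have h1 : ∑ e ∈ (pdiv m).filter (fun e => ¬ E < nm e), mu e * t1x e m =
      ∑ e ∈ pball E, mu e * t1x e m := by
    refine Finset.sum_subset (fun e he => ?_) fun e he he' => ?_
    · obtain ⟨h2, h3⟩ := Finset.mem_filter.1 he
      exact mem_pball.2 ⟨not_lt.1 h3, (pra_of_mem_pdiv h2).1⟩
    · obtain ⟨h2, h3⟩ := mem_pball.1 he
      have h4 : ¬ e ∣ m := fun h =>
        he' (Finset.mem_filter.2 ⟨(mem_pdiv hm.ne_zero).2 ⟨h3, h⟩, not_lt.2 h2⟩)
      rw [t1x, if_neg fun h => h4 ((dvd_pow_self e (by norm_num)).trans h),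
        if_neg fun h => h4 ((dvd_pow_self e (by norm_num)).trans h), sub_zero, mul_zero]
  rw [t1R, t1_f0 hm, ← h1, ← Finset.sum_filter_add_sum_filter_not (pdiv m) fun e => E < nm e,
    add_sub_cancel_right]

open Classical in
theorem t1_R_le {E : ℝ} {m : O} (hm : Prim m) {T : Finset O}
    (hT : ∀ e ∈ pdiv m, E < nm e → e ∈ T) :
    ‖t1R E m‖ ≤ dn m * ∑ e ∈ T, (if e ^ 3 ∣ m then √(nm e) else 0) +
      ∑ e ∈ T, if e ^ 2 ∣ m then 2 * n6 m else 0 := by
  have hn := n6_nonneg m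
  have hA' : ∀ e : O, 0 ≤ if e ^ 3 ∣ m then √(nm e) else 0 := fun e => by
    split_ifs
    exacts [Real.sqrt_nonneg _, le_rfl]
  have hB : ∀ e : O, 0 ≤ if e ^ 2 ∣ m then 2 * n6 m else 0 := fun e => by
    split_ifs
    exacts [mul_nonneg zero_le_two hn, le_rfl]
  have hA : 0 ≤ ∑ e ∈ T, (if e ^ 3 ∣ m then √(nm e) else 0) := Finset.sum_nonneg fun e _ => hA' e
  have h1 : ∀ e ∈ (pdiv m).filter (fun e => E < nm e), ‖mu e * t1x e m‖ ≤
      (∑ e ∈ T, if e ^ 3 ∣ m then √(nm e) else 0) + if e ^ 2 ∣ m then 2 * n6 m else 0 := by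
    intro e he
    obtain ⟨h2, h3⟩ := Finset.mem_filter.1 he
    by_cases hs : Squarefree e
    swap
    · rw [mu_eq_zero.2 hs, zero_mul, norm_zero]
      exact add_nonneg hA (hB e)
    rw [norm_mul]
    refine (mul_le_of_le_one_left (norm_nonneg _) (norm_mu_le e)).trans
      ((norm_sub_le _ _).trans (add_le_add ?_ ?_))
    · by_cases h4 : e ^ 3 ∣ m
      · rw [if_pos h4]
        by_cases h0 : TC m = 0
        · rwa [h0, norm_zero]
        obtain ⟨c, b, hc, hb, e0⟩ := exists_of_TC_ne_zero h0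
        have h5 := t1_cube hc.2 (pra_of_mem_pdiv h2).1 hs (e0 ▸ h4)
        have h6 : b ^ 3 ∣ m := e0 ▸ dvd_mul_left _ _
        have h7 : b ∈ T := hT b ((mem_pdiv hm.ne_zero).2
          ⟨hb, (dvd_pow_self b (by norm_num)).trans h6⟩) (h3.trans_le (nm_le_of_dvd h5 hb.ne_zero))
        have h8 : ‖TC m‖ = if b ^ 3 ∣ m then √(nm b) else 0 := by
          rw [if_pos h6, e0, TC_eq hc hb, norm_mul, norm_GG hc, one_mul, Complex.norm_real,
            Real.norm_of_nonneg (Real.sqrt_nonneg _)]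
        rw [h8]
        exact Finset.single_le_sum (f := fun e => if e ^ 3 ∣ m then √(nm e) else 0)
          (fun e _ => hA' e) h7
      · rwa [if_neg h4, norm_zero]
    · split_ifs
      · rw [Complex.norm_real, Real.norm_of_nonneg (mul_nonneg cP_pos.le hn)]
        exact mul_le_mul_of_nonneg_right cP_le hn
      · rw [norm_zero]
  rw [t1_R_eq E hm]
  refine (norm_sum_le _ _).trans ((Finset.sum_le_sum h1).trans ?_)
  rw [Finset.sum_add_distrib, Finset.sum_const, nsmul_eq_mul]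
  refine add_le_add (mul_le_mul_of_nonneg_right ?_ hA)
    (Finset.sum_le_sum_of_subset_of_nonneg (fun e he => ?_) fun e _ _ => ?_)
  · exact Nat.cast_le.2 (Finset.card_filter_le _ _)
  · exact hT e (Finset.mem_filter.1 he).1 (Finset.mem_filter.1 he).2
  · exact hB e

theorem t1_rem {ε : ℝ} (hε : 0 < ε) : ∃ C : ℝ, 0 < C ∧ ∀ (a Y E : ℝ) (S : Finset O), 0 < a → a ≤ 1 →
    0 < Y → 1 ≤ E → (∀ m ∈ S, Prim m) →
    ∑ m ∈ S, dn m * (‖t1R E m‖ * LW a Y (nm m)) ≤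
      C * (Y ^ (2 * ε) * (a * Y * E ^ (-(3 / 2 : ℝ)) + √Y) +
        Y ^ (2 * ε - 1 / 6) * (a * Y * E ^ (-(1 : ℝ)) + √Y)) := by
  classical
  obtain ⟨C₁, hC₁, h₁⟩ := t1_tail 3 (by norm_num) ε hε
  obtain ⟨C₂, hC₂, h₂⟩ := t1_tail 2 (by norm_num) (ε - 1 / 6) hε
  obtain ⟨D₁, hD₁, d₁⟩ := dn_pow_le 2 hε
  obtain ⟨D₂, hD₂, d₂⟩ := dn_pow_le 1 hε
  refine ⟨D₁ * C₁ + 2 * D₂ * C₂, by positivity, fun a Y E S ha ha1 hY hE hS => ?_⟩
  set T := (S.biUnion pdiv).filter fun e => E < nm e with hT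
  have hT1 : ∀ e ∈ T, E ≤ nm e := fun e he => (Finset.mem_filter.1 he).2.le
  have h3 := h₁ a Y E S T ha ha1 hY hE (fun m hm => (hS m hm).ne_zero) hT1
  have h4 := h₂ a Y E S T ha ha1 hY hE (fun m hm => (hS m hm).ne_zero) hT1
  have h5 : ∀ m ∈ S, dn m * (‖t1R E m‖ * LW a Y (nm m)) ≤
      D₁ * ∑ e ∈ T, (if e ^ 3 ∣ m then
        nm e ^ (((3 : ℕ) : ℝ) / 2 - 1) * (nm m ^ ε * LW a Y (nm m)) else 0) +
      2 * D₂ * ∑ e ∈ T, (if e ^ 2 ∣ m then
        nm e ^ (((2 : ℕ) : ℝ) / 2 - 1) * (nm m ^ (ε - 1 / 6) * LW a Y (nm m)) else 0) := by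
    intro m hm
    have hW := (LW_pos a Y (nm m)).le
    have hd := dn_nonneg m
    have hn := n6_nonneg m
    have h6 := t1_R_le (hS m hm) (T := T) fun e he h =>
      Finset.mem_filter.2 ⟨Finset.mem_biUnion.2 ⟨m, hm, he⟩, h⟩
    refine (mul_le_mul_of_nonneg_left (mul_le_mul_of_nonneg_right h6 hW) hd).trans ?_
    simp only [add_mul, mul_add, Finset.mul_sum, Finset.sum_mul]
    refine add_le_add (Finset.sum_le_sum fun e _ => ?_) (Finset.sum_le_sum fun e _ => ?_)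
    · split_ifs
      · rw [show ((3 : ℕ) : ℝ) / 2 - 1 = 1 / 2 by norm_num, ← Real.sqrt_eq_rpow]
        calc _ = dn m ^ 2 * (√(nm e) * LW a Y (nm m)) := by ring
          _ ≤ D₁ * nm m ^ ε * (√(nm e) * LW a Y (nm m)) := by gcongr; exact d₁ m (hS m hm).ne_zero
          _ = _ := by ring
      · simp
    · split_ifs
      · rw [show ((2 : ℕ) : ℝ) / 2 - 1 = 0 by norm_num, Real.rpow_zero, one_mul,
          show ε - 1 / 6 = ε + -1 / 6 by ring, Real.rpow_add (nm_pos (hS m hm).ne_zero)]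
        calc _ = dn m ^ 1 * (2 * n6 m * LW a Y (nm m)) := by ring
          _ ≤ D₂ * nm m ^ ε * (2 * n6 m * LW a Y (nm m)) := by gcongr; exact d₂ m (hS m hm).ne_zero
          _ = _ := by unfold n6; ring
      · simp
  refine (Finset.sum_le_sum h5).trans ?_
  rw [Finset.sum_add_distrib, ← Finset.mul_sum, ← Finset.mul_sum]
  rw [show ε + ε = 2 * ε by ring, show -(((3 : ℕ) : ℝ) / 2) = -(3 / 2 : ℝ) by norm_num] at h3
  rw [show ε - 1 / 6 + ε = 2 * ε - 1 / 6 by ring,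
    show -(((2 : ℕ) : ℝ) / 2) = -(1 : ℝ) by norm_num] at h4
  have hE0 : 0 < E := by linarith
  have a1 : 0 ≤ Y ^ (2 * ε) * (a * Y * E ^ (-(3 / 2 : ℝ)) + √Y) := by positivity
  have a2 : 0 ≤ Y ^ (2 * ε - 1 / 6) * (a * Y * E ^ (-(1 : ℝ)) + √Y) := by positivity
  have a3 := mul_le_mul_of_nonneg_left h3 hD₁.le
  have a4 := mul_le_mul_of_nonneg_left h4 (by positivity : 0 ≤ 2 * D₂)
  have a5 := mul_nonneg (mul_pos hD₁ hC₁).le a2
  have a6 := mul_nonneg (by positivity : 0 ≤ 2 * D₂ * C₂) a1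
  nlinarith

end Crest.Agent.R12
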