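import Crest.Agent.R12.T1.Pair
import Crest.Agent.R12.T1.Rem

/-! Row 12, block T1: the type I estimate. -/

set_option autoImplicit false

namespace Crest.Agent.R12

open Crest.Agent.R17
open scoped ComplexConjugate

open Classical in
theorem t1_summ {a Y E : ℝ} (hR : Summable fun m : Pr => dn m * (‖t1R E m‖ * LW a Y (nm m)))
    (d : O) : Summable fun m : Pr => if d ∣ (m : O) then ‖t1R E m‖ * LW a Y (nm m) else 0 := by
  have h0 : ∀ m : Pr, 0 ≤ ‖t1R E m‖ * LW a Y (nm m) :=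
    fun m => mul_nonneg (norm_nonneg _) (LW_pos _ _ _).le
  refine Summable.of_nonneg_of_le (fun m => ?_) (fun m => ?_) hR
  · split_ifs
    exacts [h0 m, le_rfl]
  · split_ifs
    exacts [le_mul_of_one_le_left (h0 m) (one_le_dn (Pr_prim m).ne_zero),
      mul_nonneg (dn_nonneg _) (h0 m)]

open Classical in
theorem t1_split (l : ℤ) {a Y E : ℝ} (ha : 0 < a) (hY : 0 < Y)
    (hR : Summable fun m : Pr => dn m * (‖t1R E m‖ * LW a Y (nm m))) (d : O) :
    ‖∑' n : Pr, if d ∣ (n : O) then al n ^ l * f0 n * (LW a Y (nm n) : ℂ) else 0‖ ≤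
      (∑' m : Pr, if d ∣ (m : O) then ‖t1R E m‖ * LW a Y (nm m) else 0) +
        ∑ e ∈ pball E, ‖(∑' m : Pr, t1u l a Y d e m) - ∑' m : Pr, t1v l a Y d e m‖ := by
  have h1 : ∀ m : Pr, ‖if d ∣ (m : O) then al m ^ l * t1R E m * (LW a Y (nm m) : ℂ) else 0‖ =
      if d ∣ (m : O) then ‖t1R E m‖ * LW a Y (nm m) else 0 := fun m => by
    split_ifs
    · rw [norm_mul, norm_mul, t1_norm_al l (Pr_prim m).ne_zero, one_mul, Complex.norm_real,
        Real.norm_of_nonneg (LW_pos _ _ _).le]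
    · exact norm_zero
  have h2 : Summable fun m : Pr =>
      ‖if d ∣ (m : O) then al m ^ l * t1R E m * (LW a Y (nm m) : ℂ) else 0‖ := by
    simpa only [h1] using t1_summ hR d
  have h3 := h2.of_norm.hasSum.add (hasSum_sum (s := pball E) fun e _ =>
    ((t1_summable_u l ha hY d e).hasSum.sub (t1_summable_v l ha hY d e).hasSum).mul_left (mu e))
  have h4 : ∀ m : Pr, (if d ∣ (m : O) then al m ^ l * f0 m * (LW a Y (nm m) : ℂ) else 0) =
      (if d ∣ (m : O) then al m ^ l * t1R E m * (LW a Y (nm m) : ℂ) else 0) +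
        ∑ e ∈ pball E, mu e * (t1u l a Y d e m - t1v l a Y d e m) := fun m => by
    by_cases h : d ∣ (m : O)
    · have h5 : ∀ e, mu e * (t1u l a Y d e m - t1v l a Y d e m) =
          al m ^ l * (mu e * t1x e m) * (LW a Y (nm m) : ℂ) := fun e => by
        simp only [t1u, t1v, t1x, h, true_and]
        split_ifs <;> ring
      simp only [if_pos h, h5, ← Finset.sum_mul, ← Finset.mul_sum, t1R]
      ring
    · simp [t1u, t1v, h]
  rw [tsum_congr h4, h3.tsum_eq]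
  refine (norm_add_le _ _).trans (add_le_add ?_ ((norm_sum_le _ _).trans
    (Finset.sum_le_sum fun e _ => ?_)))
  · exact (norm_tsum_le_tsum_norm h2).trans_eq (tsum_congr h1)
  · rw [norm_mul]
    exact mul_le_of_le_one_left (norm_nonneg _) (norm_mu_le e)

open Classical in
theorem t1_sum_d {a Y E : ℝ} (hR : Summable fun m : Pr => dn m * (‖t1R E m‖ * LW a Y (nm m)))
    {D : Finset O} (hD : ∀ d ∈ D, Prim d) :
    ∑ d ∈ D, (∑' m : Pr, if d ∣ (m : O) then ‖t1R E m‖ * LW a Y (nm m) else 0) ≤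
      ∑' m : Pr, dn m * (‖t1R E m‖ * LW a Y (nm m)) := by
  rw [← Summable.tsum_finsetSum fun d _ => t1_summ hR d]
  refine (summable_sum fun d _ => t1_summ hR d).tsum_le_tsum (fun m => ?_) hR
  rw [← Finset.sum_filter, Finset.sum_const, nsmul_eq_mul]
  refine mul_le_mul_of_nonneg_right (Nat.cast_le.2 (Finset.card_le_card fun d hd => ?_))
    (mul_nonneg (norm_nonneg _) (LW_pos _ _ _).le)
  obtain ⟨h1, h2⟩ := Finset.mem_filter.1 hd
  exact (mem_pdiv (Pr_prim m).ne_zero).2 ⟨hD d h1, h2⟩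

theorem t1_pairs : ∃ C : ℝ, 0 < C ∧ ∀ a Y D E : ℝ, 0 < a → 0 < Y → 0 ≤ D → 0 ≤ E →
    ∑ d ∈ sball D, ∑ e ∈ pball E, (√(Y / nm d) + √(nm e * nm d / a ^ 3)) ≤
      C * (E * √Y * √D + D * √D * (E * √E) / (a * √a)) := by
  obtain ⟨C, hC, h⟩ := sum_nm_rpow_le (σ := 1 / 2) (by norm_num)
  refine ⟨11 * C + 121, by positivity, fun a Y D E ha hY hD hE => ?_⟩
  have hD' : ∀ d ∈ sball D, d ≠ 0 ∧ nm d ≤ D :=
    fun d hd => ⟨(mem_sball.1 hd).2.ne_zero, (mem_sball.1 hd).1⟩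
  have c1 := card_le_of_nm_le hD hD'
  have c2 := card_le_of_nm_le hE (A := pball E)
    fun e he => ⟨(mem_pball.1 he).2.ne_zero, (mem_pball.1 he).1⟩
  have h1 := h D (sball D) hD hD'
  rw [show (1 - 1 / 2 : ℝ) = 1 / 2 by norm_num, ← Real.sqrt_eq_rpow] at h1
  have h2 : ∀ d ∈ sball D, ∑ e ∈ pball E, (√(Y / nm d) + √(nm e * nm d / a ^ 3)) ≤
      11 * E * √Y * nm d ^ (-(1 / 2 : ℝ)) + 11 * E * (√E * √D / (a * √a)) := by
    intro d hd
    have h3 : ∀ e ∈ pball E, √(Y / nm d) + √(nm e * nm d / a ^ 3) ≤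
        √Y * nm d ^ (-(1 / 2 : ℝ)) + √E * √D / (a * √a) := by
      intro e he
      refine add_le_add (le_of_eq ?_) ?_
      · rw [Real.sqrt_div hY.le, Real.rpow_neg (nm_nonneg d), ← Real.sqrt_eq_rpow, div_eq_mul_inv]
      · have h4 : a * √a = √(a ^ 3) := by
          rw [pow_succ, Real.sqrt_mul (sq_nonneg a), Real.sqrt_sq ha.le]
        rw [h4, ← Real.sqrt_mul hE, ← Real.sqrt_div (mul_nonneg hE hD)]
        refine Real.sqrt_le_sqrt (div_le_div_of_nonneg_right ?_ (by positivity))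
        exact mul_le_mul (mem_pball.1 he).1 (hD' d hd).2 (nm_nonneg d) hE
    refine (Finset.sum_le_sum h3).trans ?_
    rw [Finset.sum_const, nsmul_eq_mul, mul_assoc (11 * E), ← mul_add]
    have := Real.rpow_nonneg (nm_nonneg d) (-(1 / 2 : ℝ))
    exact mul_le_mul_of_nonneg_right c2 (by positivity)
  refine (Finset.sum_le_sum h2).trans ?_
  rw [Finset.sum_add_distrib, ← Finset.mul_sum, Finset.sum_const, nsmul_eq_mul]
  have a1 : 0 ≤ E * √Y * √D := by positivity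
  have a2 : 0 ≤ D * √D * (E * √E) / (a * √a) := by positivity
  calc _ ≤ 11 * E * √Y * (C * √D) + 11 * D * (11 * E * (√E * √D / (a * √a))) := by gcongr
    _ = 11 * C * (E * √Y * √D) + 121 * (D * √D * (E * √E) / (a * √a)) := by ring
    _ ≤ _ := by nlinarith [mul_nonneg hC.le a2]

theorem t1_num {Y a : ℝ} (hY : 1 ≤ Y) (ha : Y ^ (-(17 / 100) : ℝ) ≤ a) (ha1 : a ≤ 1) :
    ∃ E : ℝ, 1 ≤ E ∧ E ≤ Y ^ (12 / 100 : ℝ) ∧
      Y ^ (2 * (1 / 200 : ℝ)) * (a * Y * E ^ (-(3 / 2 : ℝ)) + √Y) +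
        Y ^ (2 * (1 / 200 : ℝ) - 1 / 6) * (a * Y * E ^ (-(1 : ℝ)) + √Y) ≤ 4 * Y ^ (83 / 100 : ℝ) ∧
      Y ^ (1 / 200 : ℝ) * (E * √Y * √(Y ^ (34 / 100 : ℝ)) +
        Y ^ (34 / 100 : ℝ) * √(Y ^ (34 / 100 : ℝ)) * (E * √E) / (a * √a)) ≤
          2 * Y ^ (83 / 100 : ℝ) := by
  have hY0 : 0 < Y := by linarith
  have ha0 : 0 < a := (Real.rpow_pos_of_pos hY0 _).trans_le ha
  obtain ⟨s, rfl⟩ : ∃ s : ℝ, Y = Real.exp s := ⟨_, (Real.exp_log hY0).symm⟩
  obtain ⟨t, rfl⟩ : ∃ t : ℝ, a = Real.exp t := ⟨_, (Real.exp_log ha0).symm⟩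
  have hs : 0 ≤ s := Real.one_le_exp_iff.1 hY
  have ht : t ≤ 0 := Real.exp_le_one_iff.1 ha1
  rw [← Real.exp_mul, Real.exp_le_exp] at ha
  refine ⟨Real.exp (2 / 3 * (t + 18 / 100 * s)), Real.one_le_exp (by linarith), ?_, ?_, ?_⟩
  · rw [← Real.exp_mul, Real.exp_le_exp]
    linarith
  · simp only [← Real.exp_mul, ← Real.exp_half, mul_add (Real.exp _), ← Real.exp_add]
    have key : ∀ x y z w v : ℝ, x ≤ v → y ≤ v → z ≤ v → w ≤ v →
        Real.exp x + Real.exp y + (Real.exp z + Real.exp w) ≤ 4 * Real.exp v := by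
      intro x y z w v h1 h2 h3 h4
      linarith [Real.exp_le_exp.2 h1, Real.exp_le_exp.2 h2, Real.exp_le_exp.2 h3,
        Real.exp_le_exp.2 h4]
    apply key <;> linarith
  · simp only [← Real.exp_mul, ← Real.exp_half, mul_add (Real.exp _), ← Real.exp_add,
      ← Real.exp_sub]
    have key : ∀ x y v : ℝ, x ≤ v → y ≤ v → Real.exp x + Real.exp y ≤ 2 * Real.exp v := by
      intro x y v h1 h2
      linarith [Real.exp_le_exp.2 h1, Real.exp_le_exp.2 h2]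
    apply key <;> linarith

theorem stT1 (h : StI0) : StT1 := by
  intro l
  obtain ⟨C₁, hC₁, h₁⟩ := t1_pair h l (ε := 1 / 200) (by norm_num)
  obtain ⟨C₂, hC₂, h₂⟩ := t1_rem (ε := 1 / 200) (by norm_num)
  obtain ⟨C₃, hC₃, h₃⟩ := t1_pairs
  refine ⟨1 / 300, 4 * C₂ + 2 * (C₁ * C₃), by norm_num, fun Y a hY ha ha1 => ?_⟩
  have hY1 : 1 ≤ Y := by linarith
  have hY0 : 0 < Y := by linarith
  have ha0 : 0 < a := (Real.rpow_pos_of_pos hY0 _).trans_le ha
  obtain ⟨E, hE1, hE, n1, n2⟩ := t1_num hY1 ha ha1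
  have hfin : ∀ s : Finset Pr, ∑ m ∈ s, dn m * (‖t1R E m‖ * LW a Y (nm m)) ≤
      C₂ * (4 * Y ^ (83 / 100 : ℝ)) := fun s => by
    have h4 := h₂ a Y E (s.map (Function.Embedding.subtype _)) ha0 ha1 hY0 hE1 fun m hm => by
      obtain ⟨n, -, rfl⟩ := Finset.mem_map.1 hm
      exact Pr_prim n
    rw [Finset.sum_map] at h4
    exact h4.trans (mul_le_mul_of_nonneg_left n1 hC₂.le)
  have h0 : ∀ m : Pr, 0 ≤ dn m * (‖t1R E m‖ * LW a Y (nm m)) :=
    fun m => mul_nonneg (dn_nonneg _) (mul_nonneg (norm_nonneg _) (LW_pos _ _ _).le)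
  have hR := summable_of_sum_le h0 hfin
  refine (Finset.sum_le_sum fun d _ => t1_split l ha0 hY0 hR d).trans ?_
  rw [Finset.sum_add_distrib]
  have h5 := (t1_sum_d hR (D := sball (Y ^ (34 / 100 : ℝ))) fun d hd =>
    (mem_sball.1 hd).2.1).trans (hR.tsum_le_of_sum_le hfin)
  have hYa : Y⁻¹ ≤ a := by
    rw [← Real.rpow_neg_one]
    exact (Real.rpow_le_rpow_of_exponent_le hY1 (by norm_num)).trans ha
  have h6 : ∑ d ∈ sball (Y ^ (34 / 100 : ℝ)), ∑ e ∈ pball E,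
      ‖(∑' m : Pr, t1u l a Y d e m) - ∑' m : Pr, t1v l a Y d e m‖ ≤
      C₁ * Y ^ (1 / 200 : ℝ) * ∑ d ∈ sball (Y ^ (34 / 100 : ℝ)), ∑ e ∈ pball E,
        (√(Y / nm d) + √(nm e * nm d / a ^ 3)) := by
    simp only [Finset.mul_sum]
    refine Finset.sum_le_sum fun d hd => Finset.sum_le_sum fun e he =>
      h₁ a Y d e hY hYa ha1 (mem_sball.1 hd).2 (mem_pball.1 he).2
        ((mem_sball.1 hd).1.trans (Real.rpow_le_self_of_one_le hY1 (by norm_num))) ?_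
    refine (pow_le_pow_left₀ (nm_nonneg e) ((mem_pball.1 he).1.trans hE) 3).trans ?_
    rw [← Real.rpow_natCast, ← Real.rpow_mul hY0.le]
    exact Real.rpow_le_self_of_one_le hY1 (by norm_num)
  have h7 := mul_le_mul_of_nonneg_left
    (h₃ a Y (Y ^ (34 / 100 : ℝ)) E ha0 hY0 (by positivity) (by linarith))
    (by positivity : 0 ≤ C₁ * Y ^ (1 / 200 : ℝ))
  have h8 := mul_le_mul_of_nonneg_left n2 (mul_pos hC₁ hC₃).le
  rw [show (5 / 6 - 1 / 300 : ℝ) = 83 / 100 by norm_num]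
  linarith

end Crest.Agent.R12
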