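import Crest.Agent.R12.Base.All

/-! Row 12, block T1: the comparison of the theta sum with the model for a fixed pair `(d, e)`. -/

set_option autoImplicit false

namespace Crest.Agent.R12

open Crest.Agent.R17
open scoped ComplexConjugate

open Classical in
/-- the theta side -/
noncomputable def t1u (l : ℤ) (a Y : ℝ) (d e m : O) : ℂ :=
  if d ∣ m ∧ e ^ 3 ∣ m then TC m * al m ^ l * (LW a Y (nm m) : ℂ) else 0

open Classical in
/-- the model side -/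
noncomputable def t1v (l : ℤ) (a Y : ℝ) (d e m : O) : ℂ :=
  if d ∣ m ∧ e ^ 2 ∣ m then ((cP * n6 m : ℝ) : ℂ) * al m ^ l * (LW a Y (nm m) : ℂ) else 0

theorem t1_norm_al (l : ℤ) {m : O} (hm : m ≠ 0) : ‖al m ^ l‖ = 1 := by
  rw [norm_zpow, norm_al hm, one_zpow]

theorem t1_summable_u (l : ℤ) {a Y : ℝ} (ha : 0 < a) (hY : 0 < Y) (d e : O) :
    Summable fun m : Pr => t1u l a Y d e m := by
  have h := summable_LW_pr ha hY (f := fun m => TC m * al m ^ l) (M := 1) (θ := 1 / 6)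
    fun n hn => by rw [norm_mul, t1_norm_al l hn.ne_zero, mul_one, one_mul]; exact norm_TC_le n
  refine Summable.of_norm_bounded h fun m => ?_
  unfold t1u
  split_ifs
  · exact le_rfl
  · rw [norm_zero]
    exact norm_nonneg _

theorem t1_summable_v (l : ℤ) {a Y : ℝ} (ha : 0 < a) (hY : 0 < Y) (d e : O) :
    Summable fun m : Pr => t1v l a Y d e m := by
  have h := summable_LW_pr ha hY (f := fun m => ((cP * n6 m : ℝ) : ℂ) * al m ^ l) (M := cP) (θ := 0)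
    fun n hn => by
      rw [norm_mul, t1_norm_al l hn.ne_zero, mul_one, Real.rpow_zero, Complex.norm_real,
        Real.norm_of_nonneg (mul_nonneg cP_pos.le (n6_nonneg n))]
      exact mul_le_mul_of_nonneg_left (n6_le_one n) cP_pos.le
  refine Summable.of_norm_bounded h fun m => ?_
  unfold t1v
  split_ifs
  · exact le_rfl
  · rw [norm_zero]
    exact norm_nonneg _

theorem t1_gcd {d e : O} (hd : PSq d) (he : Prim e) : ∃ r, PSq r ∧ nm r ≤ nm d ∧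
    nm d ≤ nm r * nm e ∧ (∀ n, d ∣ e ^ 3 * n ↔ r ∣ n) ∧ ∀ m, d ∣ m ∧ e ^ 2 ∣ m ↔ r * e ^ 2 ∣ m := by
  obtain ⟨g, r, e', hg, hr, h1, h2, h3⟩ := hd.1.exists_gcd e
  obtain ⟨-, hr', h4⟩ := (psq_mul_iff hg hr).1 (h1 ▸ hd)
  have h5 : IsCoprime r e := h2 ▸ h4.symm.mul_right h3
  have h6 : g ∣ e := ⟨e', h2⟩
  have h7 : r ∣ d := ⟨g, by rw [h1, mul_comm]⟩
  refine ⟨r, hr', nm_le_of_dvd h7 hd.ne_zero, ?_, fun n => ⟨fun h => ?_, fun h => ?_⟩,
    fun m => ⟨fun h => ?_, fun h => ⟨?_, (dvd_mul_left _ _).trans h⟩⟩⟩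
  · rw [h1, nm_mul, mul_comm]
    exact mul_le_mul_of_nonneg_left (nm_le_of_dvd h6 he.ne_zero) (nm_nonneg r)
  · exact h5.pow_right.dvd_of_dvd_mul_left (h7.trans h)
  · rw [h1]
    exact mul_dvd_mul (h6.trans (dvd_pow_self e (by norm_num))) h
  · exact h5.pow_right.mul_dvd (h7.trans h.1) h.2
  · refine Dvd.dvd.trans ?_ h
    rw [h1, mul_comm]
    exact mul_dvd_mul_left r (h6.trans (dvd_pow_self e (by norm_num)))

open Classical in
theorem t1_U_eq (l : ℤ) (a Y : ℝ) {d e r : O} (he : Prim e) (h : ∀ n, d ∣ e ^ 3 * n ↔ r ∣ n) :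
    ∑' m : Pr, t1u l a Y d e m = (√(nm e) : ℝ) * al (e ^ 3) ^ l *
      ∑' n : Pr, if r ∣ (n : O) then TC n * al n ^ l * (LW a (Y / nm e ^ 3) (nm n) : ℂ) else 0 := by
  have h1 := tsum_Pr_dvd (he.pow 3)
    fun m => if d ∣ m then TC m * al m ^ l * (LW a Y (nm m) : ℂ) else 0
  rw [← tsum_mul_left]
  refine Eq.trans (tsum_congr fun m => ?_) (h1.trans (tsum_congr fun n => ?_))
  · unfold t1u
    by_cases h2 : d ∣ (m : O) <;> by_cases h3 : e ^ 3 ∣ (m : O) <;> simp [h2, h3]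
  · simp only [h]
    split_ifs
    · rw [mul_comm (e ^ 3), TC_mul_cube _ he, mul_comm (n : O), al_mul, mul_zpow, nm_mul,
        LW_mul_arg, nm_pow]
      ring
    · rw [mul_zero]

open Classical in
theorem t1_V_eq (l : ℤ) {a Y : ℝ} (ha : 0 < a) (hY : 0 < Y) {d e h : O} (hh : Prim h)
    (h0 : ∀ m, d ∣ m ∧ e ^ 2 ∣ m ↔ h ∣ m) :
    ∑' m : Pr, t1v l a Y d e m =
      ((cP * Y ^ (-(1 : ℝ) / 6) * Real.exp (a ^ 2 * (-(1 : ℝ) / 6) ^ 2 / 2) : ℝ) : ℂ) * al h ^ l *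
        ∑' n : Pr, if IsCoprime (n : O) 1 then
          al n ^ l * LN a (Y * Real.exp (a ^ 2 * (-(1 : ℝ) / 6)) / nm h) 0 (nm n) else 0 := by
  have h1 := tsum_Pr_dvd hh fun m => ((cP * n6 m : ℝ) : ℂ) * al m ^ l * (LW a Y (nm m) : ℂ)
  rw [← tsum_mul_left]
  refine Eq.trans (tsum_congr fun m => ?_) (h1.trans (tsum_congr fun n => ?_))
  · unfold t1v
    simp only [h0]
  · have h2 := LW_mul_rpow ha hY (nm_pos (hh.mul (Pr_prim n)).ne_zero) (-(1 : ℝ) / 6)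
    have h3 : ((cP * n6 (h * n) : ℝ) : ℂ) * al (h * n) ^ l * (LW a Y (nm (h * n)) : ℂ) =
        ((cP * (LW a Y (nm (h * n)) * nm (h * n) ^ (-(1 : ℝ) / 6)) : ℝ) : ℂ) * al (h * n) ^ l := by
      unfold n6
      push_cast
      ring
    rw [h3, h2, if_pos isCoprime_one_right, LN_eq_LW, al_mul, mul_zpow, nm_mul, LW_mul_arg]
    push_cast
    ring

theorem t1_main_eq {a Y x r : ℝ} (hY : 0 < Y) (hx : 0 < x) (hr : 0 < r) :
    ((√x : ℝ) : ℂ) * (((cP * rho0 / r * (Y / x ^ 3) ^ (5 / 6 : ℝ) : ℝ) : ℂ) * LNt a (5 / 6)) =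
      ((cP * Y ^ (-(1 : ℝ) / 6) * Real.exp (a ^ 2 * (-(1 : ℝ) / 6) ^ 2 / 2) : ℝ) : ℂ) *
        (((rho0 * Phi 1 * (Y * Real.exp (a ^ 2 * (-(1 : ℝ) / 6)) / (r * x ^ 2)) : ℝ) : ℂ) *
          LNt a (1 + Complex.I * (0 : ℝ))) := by
  have e1 : LNt a (5 / 6) = ((√(2 * Real.pi) * a * Real.exp (a ^ 2 * (25 / 72)) : ℝ) : ℂ) := by
    unfold LNt
    push_cast
    congr 2
    ring
  have e2 : LNt a (1 + Complex.I * (0 : ℝ)) =
      ((√(2 * Real.pi) * a * Real.exp (a ^ 2 * (1 / 2)) : ℝ) : ℂ) := by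
    unfold LNt
    push_cast
    congr 2
    ring
  have e3 : Phi 1 = 1 := by simp [Phi, pra_pfs_one]
  have e4 : Real.exp (a ^ 2 * (25 / 72)) = Real.exp (a ^ 2 * (-(1 : ℝ) / 6) ^ 2 / 2) *
      Real.exp (a ^ 2 * (-(1 : ℝ) / 6)) * Real.exp (a ^ 2 * (1 / 2)) := by
    rw [← Real.exp_add, ← Real.exp_add]
    congr 1
    ring
  have e5 : Y ^ (5 / 6 : ℝ) = Y ^ (-(1 : ℝ) / 6) * Y := by
    rw [← Real.rpow_add_one hY.ne']
    norm_num
  have e6 : (x ^ 3) ^ (5 / 6 : ℝ) = √x * x ^ 2 := by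
    rw [← Real.rpow_natCast, ← Real.rpow_mul hx.le, Real.sqrt_eq_rpow, ← Real.rpow_natCast,
      ← Real.rpow_add hx]
    norm_num
  have h1 : 0 < √x := Real.sqrt_pos.2 hx
  rw [e1, e2, e3, e4, Real.div_rpow hY.le (by positivity), e5, e6, ← Complex.ofReal_mul,
    ← Complex.ofReal_mul, ← Complex.ofReal_mul, ← Complex.ofReal_mul]
  congr 1
  field_simp

open Classical in
theorem t1_pair (h : StI0) (l : ℤ) {ε : ℝ} (hε : 0 < ε) : ∃ C : ℝ, 0 < C ∧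
    ∀ (a Y : ℝ) (d e : O), 2 ≤ Y → Y⁻¹ ≤ a → a ≤ 1 → PSq d → Prim e → nm d ≤ Y → nm e ^ 3 ≤ Y →
    ‖(∑' m : Pr, t1u l a Y d e m) - ∑' m : Pr, t1v l a Y d e m‖ ≤
      C * Y ^ ε * (√(Y / nm d) + √(nm e * nm d / a ^ 3)) := by
  obtain ⟨C₁, h₁⟩ := h l ε hε
  obtain ⟨C₂, hC₂, h₂⟩ := plain_asymp l
  refine ⟨|C₁| + 12 * C₂, by positivity, fun a Y d e hY ha ha1 hd he hdY heY => ?_⟩
  have hY0 : 0 < Y := by linarith
  have ha0 : 0 < a := (inv_pos.2 hY0).trans_le ha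
  obtain ⟨r, hr, hrd, hdr, hu, hv⟩ := t1_gcd hd he
  have hx := nm_pos he.ne_zero
  have hx1 := one_le_nm he.ne_zero
  have hr0 := nm_pos hr.ne_zero
  have hd0 := nm_pos hd.ne_zero
  have hh := hr.1.mul (he.pow 2)
  have hY1 : Y⁻¹ ≤ 1 := inv_le_one_of_one_le₀ (by linarith)
  have h3 := h₁ Y a (Y / nm e ^ 3) r hY ha ha1 (hY1.trans ((one_le_div (by positivity)).2 heY))
    (div_le_self hY0.le (one_le_pow₀ hx1)) hr (hrd.trans hdY)
  have h4 := h₂ a (Y * Real.exp (a ^ 2 * (-(1 : ℝ) / 6)) / nm (r * e ^ 2)) 0 1 ha0 ha1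
    (div_pos (by positivity) (nm_pos hh.ne_zero)) one_ne_zero
  rw [t1_U_eq l a Y he hu, t1_V_eq l ha0 hY0 hh hv]
  set c : ℝ := cP * Y ^ (-(1 : ℝ) / 6) * Real.exp (a ^ 2 * (-(1 : ℝ) / 6) ^ 2 / 2) with hc
  generalize (∑' n : Pr, if r ∣ (n : O) then TC n * al n ^ l *
    (LW a (Y / nm e ^ 3) (nm n) : ℂ) else 0) = U at h3 ⊢
  generalize (∑' n : Pr, if IsCoprime (n : O) 1 then
    al n ^ l * LN a (Y * Real.exp (a ^ 2 * (-(1 : ℝ) / 6)) / nm (r * e ^ 2)) 0 (nm n) else 0) = V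
    at h4 ⊢
  have key : ((√(nm e) : ℝ) : ℂ) * al (e ^ 3) ^ l * (if l = 0 then
      ((cP * rho0 / nm r * (Y / nm e ^ 3) ^ (5 / 6 : ℝ) : ℝ) : ℂ) * LNt a (5 / 6) else 0) =
      (c : ℂ) * al (r * e ^ 2) ^ l * (if l = 0 then ((rho0 * Phi 1 *
        (Y * Real.exp (a ^ 2 * (-(1 : ℝ) / 6)) / nm (r * e ^ 2)) : ℝ) : ℂ) *
          LNt a (1 + Complex.I * (0 : ℝ)) else 0) := by
    split_ifs with hl
    · rw [hl, zpow_zero, zpow_zero, mul_one, mul_one, nm_mul, nm_pow]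
      exact t1_main_eq hY0 hx hr0
    · rw [mul_zero, mul_zero]
  generalize (if l = 0 then
      ((cP * rho0 / nm r * (Y / nm e ^ 3) ^ (5 / 6 : ℝ) : ℝ) : ℂ) * LNt a (5 / 6) else 0) = M₁
    at h3 key
  generalize (if l = 0 then ((rho0 * Phi 1 *
        (Y * Real.exp (a ^ 2 * (-(1 : ℝ) / 6)) / nm (r * e ^ 2)) : ℝ) : ℂ) *
          LNt a (1 + Complex.I * (0 : ℝ)) else 0) = M₂ at h4 key
  have e1 : ((√(nm e) : ℝ) : ℂ) * al (e ^ 3) ^ l * U - (c : ℂ) * al (r * e ^ 2) ^ l * V =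
      ((√(nm e) : ℝ) : ℂ) * al (e ^ 3) ^ l * (U - M₁) - (c : ℂ) * al (r * e ^ 2) ^ l * (V - M₂) := by
    linear_combination key
  have hc0 : 0 ≤ c := by have := cP_pos; positivity
  have hc1 : c ≤ 6 := by
    have a1 : Y ^ (-(1 : ℝ) / 6) ≤ 1 :=
      Real.rpow_le_one_of_one_le_of_nonpos (by linarith) (by norm_num)
    have a2 : Real.exp (a ^ 2 * (-(1 : ℝ) / 6) ^ 2 / 2) ≤ 3 := by
      have := pow_le_one₀ ha0.le ha1 (n := 2)
      exact (Real.exp_le_exp.2 (by nlinarith)).trans Real.exp_one_lt_three.le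
    calc c ≤ 2 * 1 * 3 := by
          rw [hc]
          gcongr
          exact cP_le
      _ = 6 := by norm_num
  have hYe : 1 ≤ Y ^ ε := Real.one_le_rpow (by linarith) hε.le
  have hq : Y / (nm r * nm e ^ 2) ≤ Y / nm d := by
    gcongr
    nlinarith [mul_pos hr0 hx]
  have b1 : √(nm e) * √(Y / nm e ^ 3 / nm r) ≤ √(Y / nm d) := by
    rw [← Real.sqrt_mul hx.le]
    refine Real.sqrt_le_sqrt (le_of_eq_of_le ?_ hq)
    field_simp
  have b2 : √(nm e) * √(nm r / a ^ 3) ≤ √(nm e * nm d / a ^ 3) := by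
    rw [← Real.sqrt_mul hx.le, mul_div_assoc]
    gcongr
  have b3 : √(Y * Real.exp (a ^ 2 * (-(1 : ℝ) / 6)) / nm (r * e ^ 2)) ≤ √(Y / nm d) := by
    refine Real.sqrt_le_sqrt (le_trans ?_ hq)
    rw [nm_mul, nm_pow]
    gcongr
    exact mul_le_of_le_one_right hY0.le (Real.exp_le_one_iff.2 (by nlinarith [sq_nonneg a]))
  have b4 : 1 ≤ √(Y / nm d) := Real.one_le_sqrt.2 ((one_le_div hd0).2 hdY)
  rw [dn_one, abs_zero, add_zero, mul_one, mul_one] at h4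
  have h5 : ‖U - M₁‖ ≤ |C₁| * Y ^ ε * (√(Y / nm e ^ 3 / nm r) + √(nm r / a ^ 3)) :=
    h3.trans (by gcongr; exact le_abs_self _)
  rw [e1]
  refine (norm_sub_le _ _).trans ?_
  rw [norm_mul, norm_mul, norm_mul, norm_mul, t1_norm_al l (he.pow 3).ne_zero,
    t1_norm_al l hh.ne_zero, mul_one, mul_one, Complex.norm_real, Complex.norm_real,
    Real.norm_of_nonneg hc0, Real.norm_of_nonneg (Real.sqrt_nonneg _)]
  have h6 : √(nm e) * ‖U - M₁‖ ≤ |C₁| * Y ^ ε * (√(Y / nm d) + √(nm e * nm d / a ^ 3)) :=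
    calc _ ≤ √(nm e) * (|C₁| * Y ^ ε * (√(Y / nm e ^ 3 / nm r) + √(nm r / a ^ 3))) := by gcongr
      _ = |C₁| * Y ^ ε * (√(nm e) * √(Y / nm e ^ 3 / nm r) + √(nm e) * √(nm r / a ^ 3)) := by ring
      _ ≤ _ := by gcongr
  have h7 : c * ‖V - M₂‖ ≤ 12 * C₂ * Y ^ ε * (√(Y / nm d) + √(nm e * nm d / a ^ 3)) :=
    calc _ ≤ 6 * (C₂ * (√(Y / nm d) + √(Y / nm d))) := by
          refine mul_le_mul hc1 (h4.trans ?_) (norm_nonneg _) (by norm_num)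
          gcongr
      _ = 12 * C₂ * 1 * (√(Y / nm d) + 0) := by ring
      _ ≤ _ := by
          gcongr
          exact Real.sqrt_nonneg _
  linarith

end Crest.Agent.R12
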