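import Crest.Agent.R12.Base.All

/-! Row 12, block T1: the tail sums. -/

set_option autoImplicit false

namespace Crest.Agent.R12

open Crest.Agent.R17
open scoped ComplexConjugate

open Classical in
theorem t1_tail_one (k : ℕ) (hk : 1 ≤ k) (σ : ℝ) {η : ℝ} (hη : 0 < η) : ∃ C : ℝ, 0 < C ∧
    ∀ (a Y : ℝ) (S : Finset O) (e : O), 0 < a → a ≤ 1 → 0 < Y → (∀ m ∈ S, m ≠ 0) → e ≠ 0 →
    ∑ m ∈ S, (if e ^ k ∣ m then nm e ^ ((k : ℝ) / 2 - 1) * (nm m ^ σ * LW a Y (nm m)) else 0) ≤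
      C * Y ^ (σ + η) * (a * Y * nm e ^ (-((k : ℝ) / 2 + 1)) + √Y * nm e ^ (-(1 + η))) := by
  obtain ⟨C₀, hC₀, h₀⟩ := sum_LW_dvd_le
  refine ⟨C₀ * Real.exp ((σ + η) ^ 2 / 2) * Real.exp |σ + η|, by positivity,
    fun a Y S e ha ha1 hY hS he => ?_⟩
  set τ := σ + η with hτ
  have he0 := nm_pos he
  have he1 := one_le_nm he
  have ha2 : a ^ 2 ≤ 1 := pow_le_one₀ ha.le ha1
  have hx1 : Real.exp (a ^ 2 * τ ^ 2 / 2) ≤ Real.exp (τ ^ 2 / 2) :=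
    Real.exp_le_exp.2 (by nlinarith [sq_nonneg τ])
  have hx2 : Real.exp (a ^ 2 * τ) ≤ Real.exp |τ| :=
    Real.exp_le_exp.2 (by nlinarith [le_abs_self τ, abs_nonneg τ, sq_nonneg a])
  have hx3 : 1 ≤ Real.exp |τ| := Real.one_le_exp (abs_nonneg _)
  rw [← Finset.sum_filter]
  have h1 : ∀ m ∈ S.filter (fun m => e ^ k ∣ m),
      nm e ^ ((k : ℝ) / 2 - 1) * (nm m ^ σ * LW a Y (nm m)) ≤
        nm e ^ ((k : ℝ) / 2 - 1 - η) * (Y ^ τ * Real.exp (τ ^ 2 / 2)) *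
          LW a (Y * Real.exp (a ^ 2 * τ)) (nm m) := by
    intro m hm
    obtain ⟨hm1, hm2⟩ := Finset.mem_filter.1 hm
    have hm0 := nm_pos (hS m hm1)
    have h2 : nm e ≤ nm m := nm_le_of_dvd ((dvd_pow_self e (by omega)).trans hm2) (hS m hm1)
    have h3 : nm m ^ σ ≤ nm e ^ (-η) * nm m ^ τ := by
      have : nm m ^ σ = nm m ^ (-η) * nm m ^ τ := by
        rw [← Real.rpow_add hm0]
        congr 1
        ring
      rw [this]
      exact mul_le_mul_of_nonneg_right (Real.rpow_le_rpow_of_nonpos he0 h2 (by linarith))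
        (by positivity)
    have h4 := LW_mul_rpow ha hY hm0 τ
    have h5 := (LW_pos a Y (nm m)).le
    have h6 := (LW_pos a (Y * Real.exp (a ^ 2 * τ)) (nm m)).le
    calc _ ≤ nm e ^ ((k : ℝ) / 2 - 1) * (nm e ^ (-η) * nm m ^ τ * LW a Y (nm m)) := by gcongr
      _ = nm e ^ ((k : ℝ) / 2 - 1 - η) * (LW a Y (nm m) * nm m ^ τ) := by
          rw [sub_eq_add_neg _ η, Real.rpow_add he0]
          ring
      _ = nm e ^ ((k : ℝ) / 2 - 1 - η) * (Y ^ τ * Real.exp (a ^ 2 * τ ^ 2 / 2)) *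
          LW a (Y * Real.exp (a ^ 2 * τ)) (nm m) := by rw [h4]; ring
      _ ≤ _ := by gcongr
  refine (Finset.sum_le_sum h1).trans ?_
  rw [← Finset.mul_sum]
  have h2 := h₀ a (Y * Real.exp (a ^ 2 * τ)) (e ^ k) (S.filter fun m => e ^ k ∣ m) ha (by linarith)
    (by positivity) fun n hn => ⟨hS n (Finset.mem_filter.1 hn).1, (Finset.mem_filter.1 hn).2⟩
  have h3 : a * (Y * Real.exp (a ^ 2 * τ)) / nm (e ^ k) ≤
      Real.exp |τ| * (a * Y * nm e ^ (-(k : ℝ))) := by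
    rw [nm_pow, Real.rpow_neg he0.le, Real.rpow_natCast, div_eq_mul_inv]
    calc _ ≤ a * (Y * Real.exp |τ|) * (nm e ^ k)⁻¹ := by gcongr
      _ = _ := by ring
  have h4 : √(Y * Real.exp (a ^ 2 * τ) / nm (e ^ k)) ≤
      Real.exp |τ| * (√Y * nm e ^ (-((k : ℝ) / 2))) := by
    rw [Real.sqrt_le_left (by positivity), mul_pow, mul_pow, Real.sq_sqrt hY.le,
      ← Real.rpow_natCast (nm e ^ _), ← Real.rpow_mul he0.le,
      show -((k : ℝ) / 2) * (2 : ℕ) = -(k : ℝ) by push_cast; ring, Real.rpow_neg he0.le,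
      Real.rpow_natCast, nm_pow, div_eq_mul_inv]
    have : Real.exp (a ^ 2 * τ) ≤ Real.exp |τ| ^ 2 := by nlinarith
    calc _ ≤ Y * Real.exp |τ| ^ 2 * (nm e ^ k)⁻¹ := by gcongr
      _ = _ := by ring
  have h5 : nm e ^ ((k : ℝ) / 2 - 1 - η) * nm e ^ (-(k : ℝ)) ≤ nm e ^ (-((k : ℝ) / 2 + 1)) := by
    rw [← Real.rpow_add he0]
    exact Real.rpow_le_rpow_of_exponent_le he1 (by linarith)
  have h6 : nm e ^ ((k : ℝ) / 2 - 1 - η) * nm e ^ (-((k : ℝ) / 2)) = nm e ^ (-(1 + η)) := by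
    rw [← Real.rpow_add he0]
    congr 1
    ring
  calc _ ≤ nm e ^ ((k : ℝ) / 2 - 1 - η) * (Y ^ τ * Real.exp (τ ^ 2 / 2)) *
        (C₀ * (Real.exp |τ| * (a * Y * nm e ^ (-(k : ℝ))) +
          Real.exp |τ| * (√Y * nm e ^ (-((k : ℝ) / 2))))) := by
        refine mul_le_mul_of_nonneg_left (h2.trans ?_) (by positivity)
        gcongr
    _ = C₀ * Real.exp (τ ^ 2 / 2) * Real.exp |τ| * Y ^ τ *
        (a * Y * (nm e ^ ((k : ℝ) / 2 - 1 - η) * nm e ^ (-(k : ℝ))) +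
          √Y * (nm e ^ ((k : ℝ) / 2 - 1 - η) * nm e ^ (-((k : ℝ) / 2)))) := by ring
    _ ≤ _ := by
        rw [h6]
        gcongr

open Classical in
/-- the tail over large `k`-th power divisors -/
theorem t1_tail (k : ℕ) (hk : 1 ≤ k) (σ : ℝ) {η : ℝ} (hη : 0 < η) : ∃ C : ℝ, 0 < C ∧
    ∀ (a Y E : ℝ) (S T : Finset O), 0 < a → a ≤ 1 → 0 < Y → 1 ≤ E → (∀ m ∈ S, m ≠ 0) →
    (∀ e ∈ T, E ≤ nm e) →
    ∑ m ∈ S, ∑ e ∈ T,
        (if e ^ k ∣ m then nm e ^ ((k : ℝ) / 2 - 1) * (nm m ^ σ * LW a Y (nm m)) else 0) ≤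
      C * Y ^ (σ + η) * (a * Y * E ^ (-((k : ℝ) / 2)) + √Y) := by
  obtain ⟨C₀, hC₀, h₀⟩ := t1_tail_one k hk σ hη
  have hk' : (1 : ℝ) ≤ k := by exact_mod_cast hk
  obtain ⟨C₁, hC₁, h₁⟩ := sum_nm_rpow_tail (σ := (k : ℝ) / 2 + 1) (by linarith)
  obtain ⟨C₂, hC₂, h₂⟩ := sum_nm_rpow_tail (σ := 1 + η) (by linarith)
  refine ⟨C₀ * (C₁ + C₂), by positivity, fun a Y E S T ha ha1 hY hE hS hT => ?_⟩
  have hE0 : 0 < E := by linarith
  rw [Finset.sum_comm]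
  refine (Finset.sum_le_sum fun e he => h₀ a Y S e ha ha1 hY hS fun h => ?_).trans ?_
  · have := hT e he
    rw [h, nm_zero] at this
    linarith
  rw [← Finset.mul_sum, Finset.sum_add_distrib, ← Finset.mul_sum, ← Finset.mul_sum]
  have h3 := h₁ E T hE0 hT
  rw [show 1 - ((k : ℝ) / 2 + 1) = -((k : ℝ) / 2) by ring] at h3
  have h4 := (h₂ E T hE0 hT).trans (mul_le_of_le_one_right hC₂.le
    (Real.rpow_le_one_of_one_le_of_nonpos hE (by linarith)))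
  have h5 : 0 ≤ a * Y * E ^ (-((k : ℝ) / 2)) := by positivity
  calc _ ≤ C₀ * Y ^ (σ + η) * (a * Y * (C₁ * E ^ (-((k : ℝ) / 2))) + √Y * C₂) := by gcongr
    _ = C₀ * Y ^ (σ + η) * (C₁ * (a * Y * E ^ (-((k : ℝ) / 2))) + C₂ * √Y) := by ring
    _ ≤ C₀ * Y ^ (σ + η) * ((C₁ + C₂) * (a * Y * E ^ (-((k : ℝ) / 2))) + (C₁ + C₂) * √Y) := by
        gcongr <;> linarith
    _ = _ := by ring

end Crest.Agent.R12
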